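import Vale.Agent.Results.P226.ZeroMomentTriples

open MeasureTheory ProbabilityTheory Real
open scoped RealInnerProductSpace

namespace Vale.Agent.Results.P226.ZS_SymmetricGroups

theorem sym_zero (d : ℕ) (B : Set (EuclideanSpace ℝ (Fin d)))
    (hsym : ∀ x, x ∈ B ↔ -x ∈ B) :
    ∫ x in B, x ∂(stdGaussian (EuclideanSpace ℝ (Fin d))) = 0 := by
  set γ := stdGaussian (EuclideanSpace ℝ (Fin d)) with hγ
  have hmap : γ.map (fun x => -x) = γ := by
    have := stdGaussian_map (E := EuclideanSpace ℝ (Fin d))
      (LinearIsometryEquiv.neg ℝ (E := EuclideanSpace ℝ (Fin d)))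
    simpa using this
  have hme : MeasurableEmbedding (fun x : EuclideanSpace ℝ (Fin d) => -x) :=
    (MeasurableEquiv.neg _).measurableEmbedding
  have h1 : ∫ x in B, x ∂γ = ∫ x in B, x ∂(γ.map (fun x => -x)) := by rw [hmap]
  rw [hme.setIntegral_map] at h1
  have hpre : (fun x : EuclideanSpace ℝ (Fin d) => -x) ⁻¹' B = B := by
    ext x
    exact (hsym x).symm
  rw [hpre, integral_neg] at h1
  have h2 : (2 : ℝ) • ∫ x in B, x ∂γ = 0 := by
    rw [two_smul]
    nth_rewrite 1 [h1]
    simp
  exact (smul_eq_zero.mp h2).resolve_left two_ne_zero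

/-- The propeller inequality for every finite family of pairwise disjoint measurable cells of
`R^d` (in particular every measurable partition) that can be arranged in `n` groups of three
(possibly empty) cells such that the union of each group is symmetric about the origin. -/
theorem result (d n : ℕ)
    (A : Fin n → Fin 3 → Set (EuclideanSpace ℝ (Fin d)))
    (hmeas : ∀ t j, MeasurableSet (A t j))
    (hdisj : ∀ t j t' j', (t, j) ≠ (t', j') → Disjoint (A t j) (A t' j'))
    (hsym : ∀ t x, x ∈ ⋃ j, A t j ↔ -x ∈ ⋃ j, A t j) :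
    ∑ t, ∑ j, ‖∫ x in A t j, x ∂(stdGaussian (EuclideanSpace ℝ (Fin d)))‖ ^ 2
      ≤ 9 / (8 * π) :=
  Vale.Agent.Results.P226.ZeroMomentTriples.result d n A hmeas hdisj
    (fun t => sym_zero d _ (hsym t))

end Vale.Agent.Results.P226.ZS_SymmetricGroups
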