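import Vale.Agent.P226.Merge

open MeasureTheory ProbabilityTheory Real
open scoped RealInnerProductSpace

namespace Vale.Agent.Results.P226.ZeroMomentTriples

open Vale.Agent.P226

/-- The propeller inequality for every finite family of pairwise disjoint measurable cells of
`R^d` (in particular every measurable partition) that can be arranged in `n` groups of three
(possibly empty) cells such that the union of each group has zero Gaussian first moment. -/
theorem result (d n : ℕ)
    (A : Fin n → Fin 3 → Set (EuclideanSpace ℝ (Fin d)))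
    (hmeas : ∀ t j, MeasurableSet (A t j))
    (hdisj : ∀ t j t' j', (t, j) ≠ (t', j') → Disjoint (A t j) (A t' j'))
    (hzero : ∀ t, ∫ x in ⋃ j, A t j, x ∂(stdGaussian (EuclideanSpace ℝ (Fin d))) = 0) :
    ∑ t, ∑ j, ‖∫ x in A t j, x ∂(stdGaussian (EuclideanSpace ℝ (Fin d)))‖ ^ 2
      ≤ 9 / (8 * π) := by
  set γ := stdGaussian (EuclideanSpace ℝ (Fin d)) with hγ
  set z : Fin n → Fin 3 → EuclideanSpace ℝ (Fin d) := fun t j => ∫ x in A t j, x ∂γ with hz
  have hid : Integrable (fun x : EuclideanSpace ℝ (Fin d) => x) γ := IsGaussian.integrable_id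
  -- each group is centered
  have hcent : ∀ t, z t 0 + z t 1 + z t 2 = 0 := by
    intro t
    have h := hzero t
    rw [integral_iUnion_fintype (fun j => hmeas t j)
      (fun j j' hjj => hdisj t j t j' (by simpa using hjj))
      (fun j => hid.integrableOn), Fin.sum_univ_three] at h
    exact h
  set L : List (EuclideanSpace ℝ (Fin d) × EuclideanSpace ℝ (Fin d) × EuclideanSpace ℝ (Fin d)) :=
    List.ofFn (fun t => (z t 0, z t 1, z t 2)) with hL
  have hLc : ∀ a ∈ L, Centered a := by
    intro a ha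
    obtain ⟨t, rfl⟩ := (List.mem_ofFn' _ _).1 ha
    exact hcent t
  have hSL : S L = ∑ t, ∑ j, ‖z t j‖ ^ 2 := by
    simp only [S, hL, List.map_ofFn, List.sum_ofFn, Function.comp_def, sq3, Fin.sum_univ_three]
  have hkey := integral_G_le L.length L rfl hLc
  -- pointwise domination on each cell
  have hdom : ∀ t j x, ⟪z t j, x⟫ ≤ G L x := by
    intro t j x
    have hmem : (z t 0, z t 1, z t 2) ∈ L := (List.mem_ofFn' _ _).2 ⟨t, rfl⟩
    refine le_trans ?_ (H_le_G hmem x)
    unfold H
    fin_cases j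
    · exact le_trans (le_max_left _ _) (le_max_left _ _)
    · exact le_trans (le_max_right _ _) (le_max_left _ _)
    · exact le_max_right _ _
  have hF : ∑ t, ∑ j, ‖z t j‖ ^ 2 ≤ ∫ x, G L x ∂γ := by
    have h1 : ∀ t j, ‖z t j‖ ^ 2 ≤ ∫ x in A t j, G L x ∂γ := by
      intro t j
      have e : ‖z t j‖ ^ 2 = ∫ x in A t j, ⟪z t j, x⟫ ∂γ := by
        rw [integral_inner hid.integrableOn, ← real_inner_self_eq_norm_sq]
      rw [e]
      exact setIntegral_mono ((integrable_inner _).integrableOn) ((integrable_G L).integrableOn)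
        (fun x => hdom t j x)
    have h2 : ∑ t, ∑ j, ∫ x in A t j, G L x ∂γ
        = ∫ x in ⋃ p : Fin n × Fin 3, A p.1 p.2, G L x ∂γ := by
      rw [integral_iUnion_fintype (s := fun p : Fin n × Fin 3 => A p.1 p.2)
        (fun p => hmeas p.1 p.2)
        (fun p p' hpp => hdisj p.1 p.2 p'.1 p'.2 hpp)
        (fun p => (integrable_G L).integrableOn), Fintype.sum_prod_type]
    calc ∑ t, ∑ j, ‖z t j‖ ^ 2 ≤ ∑ t, ∑ j, ∫ x in A t j, G L x ∂γ :=
          Finset.sum_le_sum (fun t _ => Finset.sum_le_sum (fun j _ => h1 t j))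
      _ = ∫ x in ⋃ p : Fin n × Fin 3, A p.1 p.2, G L x ∂γ := h2
      _ ≤ ∫ x, G L x ∂γ :=
          setIntegral_le_integral (integrable_G L) (Filter.Eventually.of_forall (G_nonneg L))
  rw [hSL] at hkey
  set F := ∑ t, ∑ j, ‖z t j‖ ^ 2 with hFdef
  have hF0 : 0 ≤ F := Finset.sum_nonneg (fun t _ => Finset.sum_nonneg (fun j _ => by positivity))
  have hle : F ≤ C3 * √F := le_trans hF hkey
  have hs : √F * √F = F := Real.mul_self_sqrt hF0
  have hsn : 0 ≤ √F := Real.sqrt_nonneg F
  have hC := C3_nonneg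
  have hsq : √F ≤ C3 := by
    by_contra hcon
    push Not at hcon
    nlinarith
  rw [← C3_sq]
  nlinarith
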